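import Vale.Agent.P254.E.Nodes.N0
import Vale.Agent.P254.E.Nodes.N1
import Vale.Agent.P254.E.Nodes.N2
import Vale.Agent.P254.E.Nodes.N3
import Vale.Agent.P254.E.Nodes.N4
import Vale.Agent.P254.E.CertGroups

/-! The five calibrations shared by all groups of dimensions. -/

namespace Vale.P254.E

/-- The shared calibrations. -/
def certList : List CertData := [Node0.data, Node1.data, Node2.data, Node3.data, Node4.data]

theorem certList_valid : ∀ d ∈ certList, d.Valid := by
  simp only [certList, List.mem_cons, List.not_mem_nil, or_false]
  rintro d (rfl | rfl | rfl | rfl | rfl)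
  · exact Node0.valid
  · exact Node1.valid
  · exact Node2.valid
  · exact Node3.valid
  · exact Node4.valid

end Vale.P254.E
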