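import Vale.Agent.P254.E.Nodes.G0
import Vale.Agent.P254.E.Nodes.G1
import Vale.Agent.P254.E.Nodes.G2

/-! Every dimension from four on. -/

namespace Vale.P254.E

/-- Affine images of unconditional bodies are strictly below the simplex in every dimension `n ≥ 4`. -/
theorem uncLt_ge_four {n : ℕ} (hn : 4 ≤ n) : UncLt n := by
  by_cases h4 : n ≤ 4
  · exact uncLt_from4 (by omega) h4
  by_cases h5 : n ≤ 5
  · exact uncLt_from5 (by omega) h5
  by_cases h6 : n ≤ 6
  · exact uncLt_from6 (by omega) h6
  by_cases h7 : n ≤ 7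
  · exact uncLt_from7 (by omega) h7
  by_cases h8 : n ≤ 8
  · exact uncLt_from8 (by omega) h8
  by_cases h9 : n ≤ 9
  · exact uncLt_from9 (by omega) h9
  by_cases h10 : n ≤ 10
  · exact uncLt_from10 (by omega) h10
  by_cases h11 : n ≤ 11
  · exact uncLt_from11 (by omega) h11
  by_cases h12 : n ≤ 12
  · exact uncLt_from12 (by omega) h12
  by_cases h13 : n ≤ 14
  · exact uncLt_from13 (by omega) h13
  by_cases h15 : n ≤ 16
  · exact uncLt_from15 (by omega) h15
  by_cases h17 : n ≤ 19
  · exact uncLt_from17 (by omega) h17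
  by_cases h20 : n ≤ 23
  · exact uncLt_from20 (by omega) h20
  by_cases h24 : n ≤ 30
  · exact uncLt_from24 (by omega) h24
  by_cases h31 : n ≤ 42
  · exact uncLt_from31 (by omega) h31
  by_cases h43 : n ≤ 70
  · exact uncLt_from43 (by omega) h43
  by_cases h71 : n ≤ 150
  · exact uncLt_from71 (by omega) h71
  exact uncLt_from151 (by omega)

end Vale.P254.E
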